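import Mathlib

noncomputable section

namespace Vale.Agent.P269L.Pc

open Set Function Topology Filter MvPolynomial Classical

section

variable {X Y : Type} {n : ℕ}

variable (n) in
/-- (Cn) The space `ℂ^n`. -/
def c20 : Type := Fin n → ℂ

instance c21 : NormedAddCommGroup (c20 n) := Pi.normedAddCommGroup

instance c22 : NormedSpace ℂ (c20 n) := Pi.normedSpace


variable (X) in
/-- (Co) Functions of lists of points. -/
abbrev c9 : Type := List X → ℂ

variable (X) in
/-- (Bm) Functionals on cochains. -/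
abbrev c10 : Type := c9 X → ℂ

/-- (cup) The cup product. -/
def c23 (a b : c9 X) : c9 X := fun l =>
  ∑ p ∈ Finset.range l.length, a (l.take (p + 1)) * b (l.drop p)

/-- (cob) The coboundary. -/
def c13 (a : c9 X) : c9 X := fun l =>
  ∑ i ∈ Finset.range l.length, (-1) ^ i * a (l.eraseIdx i)

/-- (unit) The unit: the constant function one of degree zero. -/
def c24 : c9 X := fun l => if l.length = 1 then 1 else 0

/-- (prd) The product of a list of cochains. -/
def c25 (a : List (c9 X)) : c9 X := a.foldr c23 c24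

/-- (pull) Pull-back along a map. -/
def c18 (f : X → Y) (a : c9 Y) : c9 X := fun l => a (l.map f)

/-- (Bd) `a` is a finite sum of homogeneous cochains of degrees `0, 1, 2, …`. -/
def c11 (a : c9 X) : Prop := a [] = 0 ∧ ∃ N, ∀ l : List X, N < l.length → a l = 0

/-- (IsDeg) `a` is homogeneous of degree `k`. -/
def c16 (k : ℤ) (a : c9 X) : Prop := ∀ l : List X, (l.length : ℤ) ≠ k + 1 → a l = 0

/-- (ind) The indicator function of a subset, a cochain of degree zero. -/
def c44 (q : X → Prop) : c9 X := fun l => if ∃ y, q y ∧ l = [y] then 1 else 0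

/-- (tau) The orientation cocycle of `ℂ^r`, with support at the origin: the product of the coboundaries
of the winding cochains `(z₀, z₁) ↦ log (z₁ / z₀) / (2 π i)` of the coordinates. -/
def c26 (r : ℕ) : c9 (Fin r → ℂ) :=
  c25 (List.ofFn fun i => c18 (fun z => z i) (c13 fun l =>
    if l.length = 2 then Complex.log (l.getD 1 0 / l.getD 0 0) / ((2 : ℕ) * Real.pi * Complex.I) else 0))

variable [TopologicalSpace X]

/-- (supp) The support: the points near which `a` does not vanish on all lists of nearby points. -/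
def c12 (a : c9 X) : Set X := {x | ∀ U ∈ 𝓝 x, ∃ l : List X, (∀ y ∈ l, y ∈ U) ∧ a l ≠ 0}

/-- (Cohom) `a` and `b` are cohomologous through a cochain with support in `U`. -/
def c17 (U : Set X) (a b : c9 X) : Prop :=
  ∃ c, c11 c ∧ c12 c ⊆ U ∧ c12 (fun l => a l - b l - c13 c l) = ∅

/-- (Zc) Cocycles with compact support. -/
def c14 (a : c9 X) : Prop := c11 a ∧ IsCompact (c12 a) ∧ c12 (c13 a) = ∅

/-- (IsBM) Borel-Moore classes: linear functionals on the cocycles with compact support (extended by zero)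
that vanish on the coboundaries of cochains with compact support. -/
def c15 (β : c10 X) : Prop :=
  (∀ a, ¬c14 a → β a = 0) ∧
  (∀ (s : ℂ) a b, c14 a → c14 b → β (fun l => s * a l + b l) = s * β a + β b) ∧
  ∀ a c, c11 c → IsCompact (c12 c) → c12 (fun l => a l - c13 c l) = ∅ → β a = 0

end

/-- (len) The length of a ring. -/
def c47 (L : Type) [CommRing L] : ℂ := (Module.length L L).toNat

/-- (Mlt) `m` is the length of the localisation of `R` at a minimal prime. -/
def c48 (R : Type) [CommRing R] (m : ℂ) : Prop :=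
  ∃ (p : Ideal R) (_ : p.IsPrime), p ∈ minimalPrimes R ∧ m = c47 (Localization.AtPrime p)

/-- (MltQ) The same for `R / (k)`. -/
def c49 {R : Type} [CommRing R] (k : Set R) : ℂ → Prop := c48 (R ⧸ Ideal.span k)

/-- (MltS) The same for `a / (k)`, where `a` is a subring. -/
def c50 {R : Type} [CommRing R] (a k : Set R) : ℂ → Prop :=
  c49 {f : Subring.closure a | f.1 ∈ k}

section

variable {A W P E : Type} [NormedRing A] [NormedAlgebra ℂ A] [NormedAddCommGroup W] [NormedSpace ℂ W]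
  [NormedAddCommGroup E] [NormedSpace ℂ E] [AddCommGroup P] [Module ℂ P] [TopologicalSpace P]
  (act : A → W → W) (ρ : A → P → P) (S : Set W) (B N : W → Submodule ℂ P)

/-- (Orb) The orbit relation. -/
def c3 (x y : S) : Prop := ∃ a, IsUnit a ∧ y.1 = act a x.1

/-- (Quo) The orbit space `S / Aˣ`. -/
def c4 : Type := Quot (c3 act S)

instance c7 : TopologicalSpace (c4 act S) := instTopologicalSpaceQuot

/-- (pick) A representative of an orbit. -/
def c43 (z : c4 act S) : W := (Quot.out z).1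

/-- (Slc) The values of `β` at the centres of the slices. -/
def c19 (m : W → ℂ → Prop) (τ : c9 E) (q : Prop) (β : c10 (c4 act S)) : Prop :=
  ∀ (U : Set E) (φ : U → S) (h : 0 ∈ U) (Φ : E → W),
    let μ := fun y : A × E => act y.1 (Φ y.2)
    let X := c4 act S
    let ψ : U → X := fun z => Quot.mk _ (φ z)
    IsOpen U → AnalyticOnNhd ℂ Φ U → (∀ z, (φ z).1 = Φ z.1) → Injective (fderiv ℂ μ (1, 0)) →
    𝓝[S] (Φ 0) ≤ map μ (𝓝 (1, 0)) → q ∧ ∀ a : c9 X, c14 a → (∀ y, c12 a y → y = ψ ⟨0, h⟩) →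
      c17 {z | z.1 = 0} (c18 ψ a) (c18 Subtype.val τ) →
      m (Φ 0) (β a * Nat.card {g // IsUnit g ∧ act g (Φ 0) = Φ 0})

/-- (IsCyc) `β` is the fundamental cycle of the quotient stack with multiplicities `m`. -/
def c27 (m : W → ℂ → Prop) (β : c10 (c4 act S)) : Prop :=
  c15 β ∧ ∃ d : ℕ, (∀ j a, j ≠ 2 * (d : ℤ) → c16 j a → β a = 0) ∧
    ∀ r, c19 (E := c20 r) act S m (c26 r) (r = d) β

/-- (IsFund) The fundamental class: all multiplicities are one. -/
def c28 : c10 (c4 act S) → Prop := c27 act S fun _ z => z = 1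

/-- (Fib) Vectors in the subspaces `B x`. -/
def c51 : Type := {z : W × P // z.1 ∈ S ∧ z.2 ∈ B z.1}

/-- (Fib.pr) The underlying pair. -/
def c51.c52 (z : c51 S B) : W × P := z.1

/-- (TRel) The relation defining the total space. -/
def c53 (x y : c51 S B) : Prop :=
  let u := x.c52 S B
  let v := y.c52 S B
  ∃ a, IsUnit a ∧ v.1 = act a u.1 ∧ v.2 - ρ a u.2 ∈ N v.1

/-- (Tot) The total space of the orbifold vector bundle over `S / Aˣ` with fibres `B x / N x`, where
`N x ⊆ B x` are subspaces of a vector space `P` on which `a` acts by `ρ a`. -/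
def c54 : Type := Quot (c53 act ρ S B N)

instance c56 : TopologicalSpace (c54 act ρ S B N) :=
  @instTopologicalSpaceQuot _ _ instTopologicalSpaceSubtype

/-- (IsThom) `t` is a Thom cocycle of a bundle with total space `X`, where `T x v z` says that `z` is the class of
the vector `v` in the fibre `B x / N x`: a cocycle with support in the zero section that restricts to
the orientation cocycle, in degree `2 r`, on every linear parametrisation of a fibre. -/
def c55 {X Z : Type} [TopologicalSpace X] (B N : Z → Submodule ℂ P) (T : Z → P → X → Prop)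
    (t : c9 X) : Prop :=
  c11 t ∧ c12 (c13 t) = ∅ ∧ (∀ z ∈ c12 t, ∃ x, T x 0 z) ∧
    ∀ (r : ℕ) (φ : (Fin r → ℂ) → X) (x : Z) (v : Fin r → P),
      (∀ c : Fin r → ℂ, ∑ i, c i • v i ∈ N x → ∀ i, c i = 0) →
      Submodule.span ℂ (range v) ⊔ N x = B x → (∀ c, T x (∑ i, c i • v i) (φ c)) →
      c17 {c | ∀ i, c i = 0} (c18 φ t) (c26 r) ∧ ∀ c l, l.length ≠ 2 * r → t (φ c :: l) = 0

/-- (IsLoc) `e` is the pull-back of a Thom cocycle of that bundle along the section given by an equivariant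
map `σ` with `σ x ∈ B x`. -/
def c57 (σ : W → P) (e : c9 (c4 act S)) : Prop :=
  let X := c54 act ρ S B N
  let T := fun x v (z : X) => ∃ y, y.c52 S B = (x, v) ∧ z = Quot.mk _ y
  ∃ s t, c55 B N T t ∧ e = c18 s t ∧
    ∀ z, let x := c43 act S z; T x (if σ x ∈ B x then σ x else 0) (s z)

/-- (IsEuler) `e` is a cocycle representing the Euler class (for a line bundle, `c₁`) of the bundle with fibres
`span (B' x) / span (N' x)`: the pull-back of a Thom cocycle along the zero section. -/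
def c60 (B' N' : W → Set P) : c9 (c4 act S) → Prop :=
  c57 act ρ S (fun x => Submodule.span ℂ (B' x)) (fun x => Submodule.span ℂ (N' x)) fun _ => 0

/-- (Form) `q` is a form of degree `n` on `E` with coefficients holomorphic at `x`. -/
def c45 (n : ℕ) (x : W) (q : W × E → ℂ) : Prop :=
  AnalyticAt ℂ q (x, 0) ∧ ∀ z u (t : ℂ), q (z, t • u) = t ^ n * q (z, u)

/-- (Ini) The equations at `y` of the normal cone of `M ∩ {u = 0}` in `M`. -/
def c46 (M : Set (W × E)) (y : W × E) : Set (W × E → ℂ) :=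
  let x := (y.1, (0 : E))
  {f | ∃ n q q', c45 n x q ∧ c45 (n + 1) x q' ∧
    (∀ᶠ z in 𝓝[M] x, q (z, z.2) = q' (z, z.2)) ∧ f =ᶠ[𝓝 y] fun z => q ((z.1, 0), z.2)}

/-- (VirE) The virtual class in coordinates. -/
def c58 (sol : Set W) (pol : Set P) (van obs : W → Set P) (σ : W → P) (j : E → P) (ρ' : A → E → E)
    (v : c10 (c4 act sol)) : Prop :=
  let K := c46 {z : W × E | z.1 ∈ S ∧ σ z.1 - j z.2 ∈ van z.1}
  let C := {y | y.1 ∈ sol ∧ ∀ f ∈ K y, f y = 0}
  let act' := fun a (y : W × E) => (act a y.1, ρ' a y.2)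
  let X := c4 act' C
  let Y := c4 act sol
  IsLinearMap ℂ j ∧ Injective j ∧ range j = pol ∧ (∀ a u, IsUnit a → j (ρ' a u) = ρ a (j u)) ∧
  (∀ y ∈ C, j y.2 ∈ obs y.1) ∧ ∃ (β : c10 X) (e : c9 X) (π : X → Y),
    c27 act' C (fun y => c50 {f | AnalyticAt ℂ f y} (K y)) β ∧
    c57 act' ρ C (fun y => Submodule.span ℂ (obs y.1)) (fun _ => ⊥) (fun y => j y.2) e ∧
    (∀ y : C, ∃ x : sol, x.1 = y.1.1 ∧ π (Quot.mk _ y) = Quot.mk _ x) ∧ c15 v ∧
    ∀ a : c9 Y, c14 a → v a = β (c23 (c18 π a) e)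

/-- (IsVir) The virtual class `0^! [C]`. -/
def c59 (sol : Set W) (pol : Set P) (van obs : W → Set P) (σ : W → P)
    (v : c10 (c4 act sol)) : Prop :=
  ∃ r j f, c58 (E := c20 r) act ρ S sol pol van obs σ j f v

/-- (Intg) `z` is the integral of `∏ ψ_i^{m_i} ev_i^* c_i`, `l i = (m_i, c_i)`, against the virtual class
of the open and closed part of the compact moduli space `sol / Aˣ` where the domain is connected and
the class is `β`. The point `x` has the curve `C x / (units of A')`, the marked points `p x i`, and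
`V x c y` says that the map has the value `y` at `c`; `ψ_i = - c₁(T_i)` for the tangent line `T_i`
of the curve at the marked point (the tangent space of `C x` modulo the orbit directions). -/
def c61 {A' Y : Type} [NormedRing A'] [NormedAlgebra ℂ A'] [TopologicalSpace Y] {n : ℕ}
    (sol : Set W) (pol : Set P) (van obs : W → Set P) (σ : W → P)
    (act' : A' → E → E) (C : W → Set E) (V : W → E → Y → Prop) (p : W → Fin n → E)
    (ρ' : Fin n → A → E → E) (dir : E → Set E)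
    (β : c10 Y) (l : Fin n → ℕ × c9 Y) (z : ℂ) : Prop :=
  let Q := c4 act sol
  let o : Q → W := c43 act sol
  ∃ (v : c10 Q) (ev : Fin n → Q → Y) (e : Fin n → c9 Q),
    let a : c9 Q := c23 (c44 fun y => IsConnected (C (o y)) ∧ ∃ γ f, c28 act' (C (o y)) γ ∧
        (∀ c, V (o y) (c43 act' _ c) (f c)) ∧ ∀ a, c14 a → β a = γ (c18 f a))
      (c25 (List.ofFn fun i => c23 (c25 (List.replicate (l i).1 fun u => -e i u))
        (c18 (ev i) (l i).2)))
    c59 act ρ S sol pol van obs σ v ∧ (∀ i y, V (o y) (p (o y) i) (ev i y)) ∧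
    (∀ i, c60 act (ρ' i) sol (fun x => {v | ∃ γ : ℂ → E, AnalyticAt ℂ γ 0 ∧
      (∀ᶠ t in 𝓝 0, γ t ∈ C x) ∧ γ 0 = p x i ∧ v = deriv γ 0}) (fun x => dir (p x i)) (e i)) ∧
    CompactSpace Q ∧ c14 a ∧ z = v a

end

section

variable {ι σ J K E F Z T : Type} [NormedAddCommGroup E] [NormedSpace ℂ E] [NormedAddCommGroup F]
  [NormedSpace ℂ F] [Fintype ι] [Fintype σ] [Fintype J] {n : ℕ}

section

variable (π : E → F) (C : Set E)

/-- (IsBranch) A holomorphic disc in the multicone `C` whose image under the projection `π` is immersed. -/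
def c81 (γ : ℂ → E) : Prop :=
  AnalyticAt ℂ γ 0 ∧ (∀ᶠ t in 𝓝 0, γ t ∈ C) ∧ LinearIndependent ℂ ![π (γ 0), π (deriv γ 0)]

/-- (IsCross) Two branches through `c` with different tangent lines. -/
def c82 (c : E) (γ δ : ℂ → E) : Prop :=
  c81 π C γ ∧ c81 π C δ ∧ γ 0 = c ∧ δ 0 = c ∧
    LinearIndependent ℂ ![π c, π (deriv γ 0), π (deriv δ 0)]

variable (nz : E → Prop) (act : (ι → ℂ) → E → E) (pol : (ι → ℕ) → Set (E → ℂ)) (g : ℤ) (m : ι → ℤ)

/-- (IsCurve) `C` is the multicone over a closed, possibly disconnected, nodal curve (near each point one smooth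
branch or two branches with different tangents) of arithmetic genus `g` and multidegree `m`, on which
every `O(a)`, `a ≠ 0`, has only polynomial sections and `h⁰ = a · m + 1 - g`. Here `nz c` says that
all components of `c` are non-zero, `act` is the action of the torus and `pol a` are the polynomials
of multidegree `a`. -/
def c83 : Prop :=
  (∀ c ∈ C, nz c) ∧ (∀ c ∈ closure C, nz c → c ∈ C) ∧
  (∀ t : ι → ℂ, (∀ i, t i ≠ 0) → ∀ c ∈ C, act t c ∈ C) ∧
  (∀ c ∈ C, ∃ γ δ, (c81 π C γ ∧ γ 0 = c ∧ δ = γ ∨ c82 π C c γ δ) ∧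
    ∀ ε > 0, ∀ᶠ y in 𝓝[C] c, ∃ t z, ‖z‖ < ε ∧ (y = act t (γ z) ∨ y = act t (δ z))) ∧
  ∀ a : ι → ℕ, (∃ i, a i ≠ 0) →
    (∀ f : E → ℂ, ContinuousOn f C →
      (∀ t : ι → ℂ, (∀ i, t i ≠ 0) → ∀ c ∈ C, f (act t c) = (∏ i, t i ^ a i) * f c) →
      (∀ γ, c81 π C γ → AnalyticAt ℂ (f ∘ γ) 0) → ∃ q ∈ pol a, ∀ c ∈ C, f c = q c) ∧
    (Set.finrank ℂ ((fun (q : E → ℂ) (c : C) => q c) '' pol a) : ℤ) = ∑ i, a i * m i + 1 - g

variable {h : Option J → ℕ} {G : Option J → Type} (v : ∀ l, G l → E → ℂ)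
  (u : Z → ∀ l, (Fin (h l) → ℂ) → ℂ) (Q : ∀ l, G l → Fin (h l) → ℂ)

/-- (Gr) The points `c` of the multicone over the curve with Hilbert points `Q` (the restriction maps from
the forms `μ` of degree `a l`, with values `v l μ c`, to `H⁰(C, O(a l)) = ℂ^(h l)`), together with
the evaluations `u z l` at `c` of the sections of `O(a l)`. -/
def c79 : Set (E × Z) := {z | nz z.1 ∧ ∀ l μ, u z.2 l (Q l μ) = v l μ z.1}

/-- (Base) The smooth space: `Q` are the framed Hilbert points of a nodal curve, the marked points `p` are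
distinct smooth points, `Ξ` is a nowhere vanishing section of `ω_log^(-k) ⊗ A_none ⊗ L^(-3 k)`:
along a branch `γ` it is `(γ ∧ ξ)^k` for a `k`-fold vector field `ξ^k = f(t) (∂_t)^k`, or
`f(t) (t ∂_t)^k` at a node or a marked point, with `f(0) ≠ 0` and opposite residues at the nodes. -/
def c84 (k : ℕ) (w : T → E → E → ℂ) (p : Fin n → E) (Ξ : T → Fin (h none) → ℂ) : Prop :=
  let Γ := c79 nz v u Q
  let C := Prod.fst '' Γ
  let N := fun c => ∃ γ δ, c82 π C c γ δ
  let q := fun c => N c ∨ ∃ i t, c = act t (p i)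
  let L := fun (γ : ℂ → E) r => ∃ f : ℂ → ℂ, AnalyticAt ℂ f 0 ∧ f 0 = r ∧
    ∀ᶠ t in 𝓝 0, ∀ z, (γ t, z) ∈ Γ → ∀ μ, u z none (Ξ μ) =
      f t * (if q (γ 0) then t else 1) ^ k * w μ (γ t) (deriv γ t)
  (∀ l, Surjective (Q l)) ∧ (∀ l μ, (∀ c ∈ C, v l μ c = 0) → ∀ s, Q l μ s = 0) ∧
    c83 π C nz act pol g m ∧ (∀ i, p i ∈ C ∧ ¬N (p i)) ∧
    (∀ i j t, p i = act t (p j) → i = j) ∧ (∀ γ, c81 π C γ → ∃ r ≠ 0, L γ r) ∧
    ∀ c γ δ r s, c82 π C c γ δ → L γ r → L δ s → r = (-1) ^ k * s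

end

/-- (spn) The span of a set of functions. -/
def c42 (S : Set (Z → T → ℂ)) : Set (Z → T → ℂ) := Submodule.span ℂ S

/-- (prods) The products of `a i` functions in `S i`. -/
def c85 (S : ι → Set (Z → ℂ)) (a : ι → ℕ) : Set (Z → ℂ) :=
  {f | ∃ φ : (Σ i, Fin (a i)) → Z → ℂ, (∀ s, φ s ∈ S s.1) ∧ f = fun z => ∏ s, φ s z}

/-- (gens) The products of a function in `S₁`, one in `c85 U α` and one in `S₃ α`, `α ∈ s`. -/
def c86 (s : Finset (J →₀ ℕ)) (S₁ : Set (T → ℂ)) (U : J → Set (Z → ℂ))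
    (S₃ : (J →₀ ℕ) → Set (E → ℂ)) : Set (E × Z → T → ℂ) :=
  {f | ∃ α ∈ s, ∃ f₁ ∈ S₁, ∃ f₂ ∈ c85 U α, ∃ f₃ ∈ S₃ α, f = fun z ζ => f₁ ζ * f₂ z.2 * f₃ z.1}

/-- (IntgE) The invariant `c61` of the moduli space of solutions. A point `w` of the ambient space consists of
Hilbert points `w.1`, marked points `w.2.1`, a tensor `w.2.2.1` and thickened fields `w.2.2.2`; the
group changes bases (`A₁`, `A₂`) and rescales the marked points. The curve `Γ w.1` consists of
points `z = (c, u)`, and the fields `x j z μ` are linear in the test form `μ : G` with value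
`v μ c`. A solution is a point of `base` with `x j z μ = y j * v μ c`, `y` in the cone over the
target. The section consists of the Koszul relations and the homogenised equations `hm` of the
target; `pol` is a finite dimensional space of polynomial functions, `van` are those vanishing on
the curve, and `obs / van` are the sections of the image of the differential of the equations, the
quotient of the sheaf of fields by the pull-back of the tangent bundle of the cone. -/
def c62 {A₁ A₂ A' B₁ B₃ B₄ Y D G : Type} [NormedRing A₁] [NormedAlgebra ℂ A₁]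
    [NormedRing A₂] [NormedAlgebra ℂ A₂] [NormedRing A'] [NormedAlgebra ℂ A'] [NormedAddCommGroup B₁]
    [NormedSpace ℂ B₁] [NormedAddCommGroup B₃] [NormedSpace ℂ B₃] [NormedAddCommGroup B₄]
    [NormedSpace ℂ B₄] [TopologicalSpace Y]
    (t₁ : B₁ → A₂ → A₁ → B₁) (t₃ : B₃ → A₂ → A₁ → B₃) (t₄ : B₄ → A₂ → A₁ → B₄)
    (aE iE : A₁ → E → E) (aZ : A₂ → Z → Z) (aG : A₁ → G → G) (aD : A₁ → D → D)
    (act : A' → E → E) (dir : E → Set E) (Γ : B₁ → Set (E × Z))
    (base : B₁ → (Fin n → E) → B₃ → Prop) (S : Set (J → ℂ)) (π : S → Y)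
    (v : G → E → ℂ) (x : B₄ → J → Z → G → ℂ) (dual : Set (G → ℂ))
    (u : J → Set (Z → ℂ)) (gen : K → Set (E × Z → D → ℂ)) (η : D → G)
    (hm : K → D → E → (J → ℂ) → ℂ) :=
  let V := Fin n → E
  let U := Fin n → A'
  let H := E × Z
  let L := G × G
  let P := J → H → L → ℂ
  let Q := K → H → D → ℂ
  let R := B₃ × B₄
  let X := fun (w : B₁ × V × R) j (z : E × Z) => x w.2.2.2 j z.2
  let Sol := fun w z (y : J → ℂ) => ∀ j μ, X w j z μ = y j * v μ z.1
  let bs := {w : B₁ × V × R | base w.1 w.2.1 w.2.2.1}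
  let ρ := fun i (s : A₁ × A₂ × U) c => act (s.2.2 i) (aE s.1 c)
  let pol :=
    {κ : P × Q | (∀ j, κ.1 j ∈ c42 {f | ∃ l ∈ dual, ∃ l' ∈ dual, ∃ μ, ∃ φ ∈ u j,
      f = fun z m => l m.1 * l' m.2 * v μ z.1 * φ z.2}) ∧ ∀ k, κ.2 k ∈ c42 (gen k)}
  c61 (P := P × Q)
    (fun s (w : B₁ × V × R) =>
      (t₁ w.1 s.2.1 s.1, fun i => ρ i s (w.2.1 i), t₃ w.2.2.1 s.2.1 s.1, t₄ w.2.2.2 s.2.1 s.1))
    (fun s κ => (fun j z m => κ.1 j (iE s.1 z.1, aZ s.2.1 z.2) (aG s.1 m.1, aG s.1 m.2),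
      fun k z ζ => κ.2 k (iE s.1 z.1, aZ s.2.1 z.2) (aD s.1 ζ)))
    bs {w | w ∈ bs ∧ ∀ z ∈ Γ w.1, ∃ y ∈ S, Sol w z y} pol
    (fun w => {κ | κ ∈ pol ∧ ∀ z ∈ Γ w.1, (∀ j m, κ.1 j z m = 0) ∧ ∀ k ζ, κ.2 k z ζ = 0})
    (fun w => {κ | κ ∈ pol ∧ ∀ z ∈ Γ w.1, ∃ y : J → G → ℂ, (∀ j, y j ∈ dual) ∧
      (∀ j m, κ.1 j z m = v m.2 z.1 * y j m.1 - v m.1 z.1 * y j m.2) ∧ ∀ k ζ, κ.2 k z ζ =
        deriv (fun ε : ℂ => hm k ζ z.1 fun j => X w j z (η ζ) + ε * y j (η ζ)) 0})
    (fun w => (fun j z m => v m.2 z.1 * X w j z m.1 - v m.1 z.1 * X w j z m.2,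
      fun k z ζ => hm k ζ z.1 fun j => X w j z (η ζ)))
    act (fun w => Prod.fst '' Γ w.1)
    (fun w c y => ∃ z, (c, z) ∈ Γ w.1 ∧ ∃ y' : S, Sol w (c, z) y' ∧ y = π y') (fun w => w.2.1) ρ dir

variable (E F) in
/-- (Hom) Continuous linear maps. -/
def c30 : Type := E →L[ℂ] F

instance c66 : NormedAddCommGroup (c30 E F) := ContinuousLinearMap.toNormedAddCommGroup

instance c69 : NormedSpace ℂ (c30 E F) := ContinuousLinearMap.toNormedSpace

instance c63 : NormedRing (c30 E E) := ContinuousLinearMap.toNormedRing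

instance c64 : NormedAlgebra ℂ (c30 E E) := ContinuousLinearMap.toNormedAlgebra

/-- (Hom.ap) The value of a linear map. -/
def c30.c37 (f : c30 E F) (x : E) : F := f.toFun x

/-- (Hom.cm) The composition `f ∘ s`. -/
def c30.c72 (f : c30 E F) (s : c30 E E) : c30 E F := f ∘L s

/-- (Hom.cj) The composition `e ∘ f ∘ s`. -/
def c30.c73 (e : c30 F F) (f : c30 E F) (s : c30 E E) : c30 E F := e ∘L f.c72 s

/-- (Hom.iap) The value of the inverse. -/
def c30.c78 (s : c30 E E) : E → E := (Ring.inverse s).c37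

/-- (En) Endomorphisms of `ℂ^n`. -/
abbrev c32 (n : ℕ) : Type := c30 (c20 n) (c20 n)

/-- (Du) Linear forms on `ℂ^n`. -/
abbrev c31 (n : ℕ) : Type := c30 (c20 n) ℂ

/-- (dap) The value of a linear form on `ℂ^n`. -/
def c38 (f : c31 n) : c20 n → ℂ := f.c37

variable (M : ι → ℕ) (τ : σ → ι)

/-- (Tn) Multilinear forms with one argument in `ℂ^(M (τ s))` for each `s`. -/
def c29 : Type := ContinuousMultilinearMap ℂ (fun s => Fin (M (τ s)) → ℂ) ℂ

instance c33 : NormedAddCommGroup (c29 M τ) :=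
  ContinuousMultilinearMap.normedAddCommGroup (E := fun s => c20 (M (τ s)))

instance c35 : NormedSpace ℂ (c29 M τ) :=
  ContinuousMultilinearMap.normedSpace (E := fun s => c20 (M (τ s)))

/-- (Mx) Linear maps from multilinear forms to `ℂ^n`. -/
def c36 (n : ℕ) : Type := c30 (c29 M τ) (c20 n)

instance c67 : NormedAddCommGroup (c36 M τ n) := c66

instance c70 : NormedSpace ℂ (c36 M τ n) := c69

variable {M τ}

/-- (Tn.tap) The value of a form. -/
def c29.c40 (μ : c29 M τ) (v : ∀ s, c20 (M (τ s))) : ℂ := μ.toFun v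

/-- (Tn.diag) The value of a form on the diagonal, a multihomogeneous polynomial. -/
def c29.c41 (μ : c29 M τ) (c : ∀ i, c20 (M i)) : ℂ := μ.c40 fun s => c (τ s)

/-- (sbs) Linear substitution in multilinear forms. -/
def c76 (s : ∀ i, c32 (M i)) : c30 (c29 M τ) (c29 M τ) :=
  ContinuousMultilinearMap.compContinuousLinearMapL fun i => s (τ i)

/-- (mav) The value. -/
def c80 (f : c36 M τ n) : c29 M τ → c20 n := c30.c37 f

/-- (chg) Change of bases. -/
def c77 (f : c36 M τ n) (e : c32 n) (s : ∀ i, c32 (M i)) : c36 M τ n := e.c73 f (c76 s)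

/-- (sl) `a i` arguments of type `i`. -/
def c39 (a : ι → ℕ) : (Σ i, Fin (a i)) → ι := Sigma.fst

variable (M τ n) in
/-- (Chart) The chart: Hilbert points `Q l`, marked points, the tensor `Ξ` of the isomorphism
`A_o = (ω_log ⊗ L³)^k` and thickened fields `x j : H⁰(ℙ, O(b)) → H⁰(C, L ⊗ O(b))`; the equation `q` is
homogenised to degree `e q`. -/
def c88 {σ₁ : Option J → Type} {σ₂ Y : Type} [∀ l, Fintype (σ₁ l)] [Fintype σ₂] [TopologicalSpace Y]
    (h : Option J → ℕ) (τ₁ : ∀ l, σ₁ l → ι) (τ₂ : σ₂ → ι) (o : ι) (k : ℕ)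
    (w : c29 M τ → (∀ i, c20 (M i)) → (∀ i, c20 (M i)) → ℂ) (g : ℤ) (m : ι → ℤ) (b : ι → ℕ)
    (e : K → ι → ℕ) (F : K → MvPolynomial J ℂ) (S : Set (J → ℂ)) (π : S → Y) :=
  let E := ∀ i, c20 (M i)
  let Z := ∀ l, c31 (h l)
  let D := ∀ i, c31 (M i)
  let A := ∀ i, c32 (M i)
  let B := ∀ l, c32 (h l)
  let X := ∀ l, c36 M (τ₁ l) (h l)
  let C := c36 M τ (h none)
  let I := ∀ j, c36 M τ₂ (h (some j))
  let G := c29 M τ₂
  let u := fun (z : Z) l => c38 (z l)
  let U := fun j => range fun y z => u z (some j) y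
  let nz := fun c : E => ∀ i, ∃ s, c i s ≠ 0
  let act : _ → E → E := fun (t : ι → ℂ) c i s => t i * c i s
  let pol := fun a => range (c29.c41 (M := M) (τ := c39 a))
  let d := fun q (α : J →₀ ℕ) i => e q i - ∑ j, α j * b i
  c62 (n := n) (E := E) (G := G) (fun (Q : X) (s : B) (s' : A) l => c77 (Q l) (s l) s')
    (fun (Ξ : C) s => c77 Ξ (s none))
    (fun (x : I) s s' j => c77 (x j) (s (some j)) s')
    (fun s c i => (s i).c37 (c i)) (fun s c i => (s i).c78 (c i)) (fun s z l => (z l).c72 (s l))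
    (fun s => (c76 s).c37) (fun s (ζ : D) i => (ζ i).c72 (s i))
    act (fun c => range fun i => update (fun _ _ => 0) i (c i))
    (fun Q => c79 nz (fun _ => c29.c41) u fun l => c80 (Q l))
    (fun Q p Ξ => c84 (fun c => c o) nz act pol g m (fun _ => c29.c41) u (fun l => c80 (Q l)) k w p
      (c80 Ξ))
    S π c29.c41 (fun x j z μ => u z (some j) (c80 (x j) μ)) (range c30.c37) U
    (fun q => c86 (F q).support
      (c85 (fun i => range fun y (ζ : D) => c38 (ζ i) y) (e q)) U fun α => pol (d q α))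
    (fun ζ => (ContinuousMultilinearMap.mkPiAlgebra ℂ _ ℂ).compContinuousLinearMap fun s => ζ (τ₂ s))
    fun q ζ c y => ∑ α ∈ (F q).support,
      coeff α (F q) * (∏ j, y j ^ α j) * ∏ i, c38 (ζ i) (c i) ^ d q α i

/-- (slot) The arguments of the test forms for `Ξ`: `k` pairs of vectors of the factor `o` and `b i`
vectors of the factor `i`. -/
def c89 (o : ι) (k : ℕ) (b : ι → ℕ) : (Fin k × Bool) ⊕ (Σ i, Fin (b i)) → ι :=
  Sum.elim (fun _ => o) (c39 b)

/-- (wedge) The value of a test form on `(c ∧ v)^k ⊗ c^b`. -/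
def c90 {o : ι} {k : ℕ} {b : ι → ℕ} (μ : c29 M (c89 o k b)) (c v : ∀ i, c20 (M i)) : ℂ :=
  ∑ ε : Fin k → Bool, (∏ i, if ε i then -1 else 1) *
    μ.c40 (Sum.rec (fun s => if ε s.1 = s.2 then c o else v o) fun s => c s.1)

/-- (IsGW) `z` is the contribution of the degree `d` to the Gromov-Witten invariant
`⟨τ_{m₁}(c₁) ⋯ τ_{m_n}(c_n)⟩_{g, β}`, `l i = (m_i, c_i)`, of the target `π : S → Y` with equations `F`,
computed in the charts with large parameters `k`, `D`: `m` is the bidegree of the embedded curve,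
`L = O(-1, 1)`, `O(a none) = O(D, D) = ω_log^(-k) ⊗ A_none ⊗ L^(-3 k) ⊗ O(2 k, 0) ⊗ O(b')` and
`O(a (some j)) = O(1, 1) = L ⊗ O(b)`, `b = (2, 0)`. -/
def c91 {Y : Type} [TopologicalSpace Y] (F : K → MvPolynomial J ℂ) (S : Set (J → ℂ)) (π : S → Y)
    (g : ℤ) (β : c10 Y) (n : ℕ) (l : Fin n → ℕ × c9 Y) (d : ℤ) (z : ℂ) : Prop :=
  ∀ᶠ k : ℕ in atTop, ∀ᶠ D : ℕ in atTop,
    let m : Option Unit → ℤ := fun o => k * (2 * g - 2 + n + 3 * d) + o.elim 0 fun _ => d
    let a : Option J → ℕ := fun l => l.elim D fun _ => 1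
    let b : Option Unit → ℕ := fun o => o.elim 2 fun _ => 0
    let b' : Option Unit → ℕ := fun o => o.elim (D - (5 * k + 1)) fun _ => D + 3 * k
    c88 n (fun o => (m o + 1 - g).toNat) (c89 none k b')
      (fun l => (∑ o, a l * m o + 1 - g).toNat) (fun l => c39 fun _ => a l) (c39 b) none k c90 g m b
      (fun q o => (F q).totalDegree * ∑ _j : J, b o) F S π β l z

end

section

variable {A E Y : Type} [NormedRing A] [NormedAddCommGroup E] [NormedSpace ℂ E] (act : A → E → E)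
  (S : Set E) (T : E → Set E)

/-- (IsCan) `e` represents `c₁(K_X)` for `X = S / Aˣ` of dimension `n`, where `a` acts on `E` by the scalar
`χ a` and `T x` is the tangent space of `S`. The fibre of `K_X` at `x` is the space of alternating
`n`-forms on `T x` that vanish on the direction `x` of the orbit. -/
def c105 (χ : A → ℂ) (n : ℕ) : c9 (c4 act S) → Prop :=
  c60 act (fun a (ω : E [⋀^Fin n]→L[ℂ] ℂ) => ω.compContinuousLinearMap ((χ a)⁻¹ • .id ℂ E)) S
    (fun x => {ω | ∀ v, (∀ s, v s ∈ T x) → (∃ s, v s = x) → ω v = 0})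
    fun x => {ω | ∀ v, (∀ s, v s ∈ T x) → ω v = 0}

/-- (dk) The derivative of order `k`. -/
def c99 {V : Type} [NormedAddCommGroup V] [NormedSpace ℝ V] (k : ℕ) (f : V → ℂ) (x : V)
    (v : Fin k → V) : ℂ := (iteratedFDeriv ℝ k f x).toFun v

/-- (IsHodge) The cocycle `a` represents a class in `H^{p,q}`: it has degree `k = p + q`, it is smooth near the
diagonal and its differential form `∑ sign σ ∂_{v σ 1} ⋯ ∂_{v σ k} a(x, ·, …, ·)` (the de Rham
representative, pulled back by `π` to the cone `S`) has type `(p, q)`. -/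
def c100 (π : S → Y) (p q : ℕ) (a : c9 Y) : Prop :=
  let k := p + q
  let k' := k + 1
  c16 k a ∧ ∀ x : S, ∃ f : (Fin k' → E) → ℂ,
    let ω := fun v : Fin k → E => ∑ σ : Equiv.Perm (Fin k), (Equiv.Perm.sign σ : ℤ) *
      c99 k f (fun _ => x) fun i => Pi.single i.succ (v (σ i))
    ContDiff ℝ (⊤ : ℕ∞) f ∧
      (∀ᶠ z : Fin k' → S in 𝓝 fun _ => x, f (fun i => z i) = a (List.ofFn fun i => π (z i))) ∧
      ∀ v (s : ℂ), (∀ i, v i ∈ T x) → ω (fun i => s • v i) = s ^ p * (starRingEnd ℂ s) ^ q * ω v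

end

/-! Formal series in supercommuting variables `t^a_m`, `(m, a) : ℕ × I`, Novikov variables `Q^β` and
`ħ`: `F [i₁, …, i_n] β j` is the coefficient of `Q^β ħ^j` in `∂_{i_n} ⋯ ∂_{i₁} F` at `t = 0`, that is
`F = ∑ (1 / n!) F [i₁, …, i_n] t^{i₁} ⋯ t^{i_n}`; `π a` is the cohomological degree of `a`. -/

variable {I Γ : Type} [AddCommGroup Γ] [Fintype I] [DecidableEq I] (π : I → ℕ)

/-- (sg) The Koszul sign. -/
def c93 (i : ℕ × I) (l : List (ℕ × I)) : ℂ := (-1) ^ (π i.2 * (l.map fun j => π j.2).sum)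

/-- (tmul) Multiplication by the variable `t^i`. -/
def c94 (i : ℕ × I) (F : List (ℕ × I) → ℂ) (l : List (ℕ × I)) : ℂ :=
  ∑ s : Fin l.length, if l.get s = i then c93 π i (l.take s) * F (l.eraseIdx s) else 0

/-- (smul) The product, determined by the constant terms and the Leibniz rule. -/
def c96 (l : List (ℕ × I)) : (F G : List (ℕ × I) → Γ → ℤ → ℂ) → Γ → ℤ → ℂ :=
  l.foldr (fun i P F G β j => P (fun l => F (i :: l)) G β j +
      P (fun l β j => c93 π i l * F l β j) (fun l => G (i :: l)) β j)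
    fun F G β j => ∑ᶠ x : Γ × ℤ, F [] x.1 x.2 * G [] (β - x.1) (j - x.2)

/-- (sexp) The exponential. -/
def c97 (F : List (ℕ × I) → Γ → ℤ → ℂ) (l : List (ℕ × I)) (β : Γ) (j : ℤ) : ℂ :=
  ∑ᶠ n : ℕ, (fun P l => c96 π l F P)^[n]
    (fun l β j => if l = [] ∧ β = 0 ∧ j = 0 then 1 else 0) l β j / n.factorial

/-- (esy) Getzler's `[x]^k_i = e_{k+1-i}(x, x + 1, …, x + k)`, for `k = k' - 1`. -/
def c92 (k' i : ℕ) (x : ℂ) : ℂ :=
  (∏ j ∈ Finset.range k', (Polynomial.X + Polynomial.C (x + j))).coeff i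

/-- (virL) The coefficient `l`, `ħ^j` of `L_k F`, `k = k' - 1`, for the Virasoro operator `L_k` of a target of
dimension `n` with grading `μ a = p a - n / 2`, Poincaré pairing `η`, matrix `R` of `c₁(TX) ∪` and
coordinates `u` of the unit. -/
def c95 (p : I → ℕ) (u : I → ℂ) (η R : Matrix I I ℂ) (n k' : ℕ) (F : ℤ → List (ℕ × I) → ℂ) (j : ℤ)
    (l : List (ℕ × I)) : ℂ :=
  let h : ℂ := 1 / (2 : ℕ)
  let μ : I → ℂ := fun a => p a - h * n
  let Q : ℕ → Matrix I I ℂ := fun i => R ^ i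
  (∑ i ∈ Finset.range (k' + 1),
    ((∑ᶠ m : ℕ, if i + 1 ≤ m + k' then ∑ a, ∑ b, c92 k' i (μ a + m + h) * Q i a b *
        c94 π (m, a) (fun l => F j ((m + k' - (i + 1), b) :: l)) l else 0) -
      (∑ a, ∑ b, c92 k' i (h * ((3 : ℕ) - n)) * u a * Q i a b * F j ((k' - i, b) :: l)) +
      ∑ m ∈ Finset.range (k' - (i + 1)), ∑ a, ∑ b, ∑ c,
        h * (-1) ^ (m + 1) * η⁻¹ a b * c92 k' i (μ b - m - h) * Q i b c *
          F (j - 1) ((m, a) :: (k' - (i + 2) - m, c) :: l))) +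
  (∑ a, ∑ b, h * (Q k' * η) a b * c94 π (0, a) (c94 π (0, b) (F (j + 1))) l) +
  (if k' = 1 then ∑ a, (-1) ^ π a * (h ^ 4 - h ^ 2 * μ a ^ 2) else 0) * F j l

/-- (Virasoro) The Virasoro constraints for a target `Y` of dimension `n` with Hodge types `Hdg`, fundamental
class `Fund`, canonical class `Can` and invariants `GW`. The invariants are well defined numbers `N`;
they vanish unless `d ≥ 0` is the degree of `β`, in the stable range, and finitely many classes `β`
occur for given `g`, `n`, `d` (so all sums in `c97` are finite);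
there are cocycles `φ a` of Hodge types `(p a, q a)` whose classes form a basis, and for all such
bases the operators `L_k`, `k ≥ -1`, annihilate `Z = exp (∑ ħ^(g-1) F_g)`. -/
def c98 {Y : Type} [TopologicalSpace Y] (Hdg : ℕ → ℕ → c9 Y → Prop) (Fund : c10 Y → Prop)
    (Can : c9 Y → Prop) (GW : ℤ → c10 Y → ∀ n, (Fin n → ℕ × c9 Y) → ℤ → ℂ → Prop) (n : ℕ) : Prop :=
  let Dt := fun (B : ℕ) (φ : Fin B → c9 Y) (p q : Fin B → ℕ) (η R : Matrix (Fin B) (Fin B) ℂ)
      (u : Fin B → ℂ) =>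
    let E := fun x (y : Fin B → ℂ) => c17 univ x fun l => ∑ b, y b * φ b l
    (∀ a, c14 (φ a) ∧ Hdg (p a) (q a) (φ a)) ∧ (∀ x, c14 x → ∃! y, E x y) ∧ E c24 u ∧
      (∃ X, Fund X ∧ ∀ a b, η a b = X (c23 (φ a) (φ b))) ∧
      ∃ e, Can e ∧ ∀ a, E (fun l => -c23 e (φ a) l) (R a)
  ∃ (N : ℤ → c10 Y → ∀ n, (Fin n → ℕ × c9 Y) → ℤ → ℂ) (h : c9 Y),
  (∀ g β n l d z, 0 ≤ g → c15 β → (∀ i, c14 (l i).2) → (GW g β n l d z ↔ z = N g β n l d)) ∧
  (∀ g β n l d, N g β n l d ≠ 0 → 0 ≤ g ∧ c15 β ∧ β h = d ∧ 0 ≤ d ∧ 0 < 2 * g - 2 + n + 3 * d) ∧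
  (∀ g n d, {β | ∃ l, N g β n l d ≠ 0}.Finite) ∧
  (∃ B φ p q η R u, Dt B φ p q η R u) ∧
  ∀ B φ p q η R u, Dt B φ p q η R u →
    let π := fun a => p a + q a
    ∀ k β j l, c95 π p u η R n k (fun j l => c97 π (fun l β j =>
      ∑ᶠ d, N (j + 1) β l.length (fun i => ((l.get i).1, φ (l.get i).2)) d) l β j) j l = 0

variable {J K : Type} [Fintype J] (F : K → MvPolynomial J ℂ)

/-- (cone) The cone over the subvariety of projective space cut out by the polynomials `F k`. -/
def c2 : Set (J → ℂ) := {x | (∃ j, x j ≠ 0) ∧ ∀ k, eval x (F k) = 0}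

/-- (scal) The action of `ℂˣ`. -/
def c5 (t : Unit → ℂ) (x : J → ℂ) (j : J) : ℂ := t () * x j

/-- (Var) The subvariety of projective space. -/
def c6 : Type := c4 c5 (c2 F)

instance c8 : TopologicalSpace (c6 F) := c7 _ _

/-- (Conj) The Virasoro conjecture for the subvariety, of dimension `n` and cut out by equations of
degrees `d`; `T x` is the tangent space of the cone. The last clauses check the definition of the
invariants in positive degree: the primary invariants of degree one of a line and the 27 lines on a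
cubic surface. -/
def c107 (d : K → ℕ) (n : ℕ) : Prop :=
  let S := c2 F
  let T := fun x : J → ℂ => {v | ∀ k, ∑ j, v j * eval x (pderiv j (F k)) = 0}
  let Y := c6 F
  let π : S → Y := Quot.mk _
  let X : c10 Y → Prop := c28 c5 S
  let G := c91 F S π
  c98 (c100 S T π) X (c105 c5 S T (fun t => t ()) n) G n ∧
  (n = 1 → (∀ k, d k = 1) → ∀ β, X β → ∀ m (a : Fin m → c9 Y), (∀ i, c14 (a i) ∧ c16 2 (a i)) →
    G 0 β m (fun i => (0, a i)) 1 (∏ i, β (a i))) ∧
  (n = 2 → Fintype.card J = 4 → (∀ k, d k = 3) → ∀ z : c10 Y → ℂ,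
    (∀ β, c15 β → G 0 β 0 Fin.elim0 1 (z β)) → ∑ᶠ β ∈ {β | c15 β}, z β = 27)

end Vale.Agent.P269L.Pc
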