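import Vale.Agent.P269L.Pc.All
import Vale.Agent.P269L.Tx
import Vale.Agent.P269L.Fr.Defs

/-!
# The numbered text is the parametrised text at the cone vocabulary
-/

namespace Vale.Agent.P269L.Pc

theorem eIsCyc : @c27 = @Tx.IsCyc := (rfl)

theorem eIsFund : @c28 = @Tx.IsFund := (rfl)

theorem eIsLoc : @c57 = @P269.Pub.IsLoc := (rfl)

theorem eIni : @c46 = @Tx.Ini := (rfl)

theorem eVirE : @c58 = @Tx.VirE := by
  unfold c58 Tx.VirE
  rw [eIsCyc, eIsLoc, eIni]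
  rfl

theorem eIsVir : @c59 = @Tx.IsVir := by
  unfold c59 Tx.IsVir
  rw [eVirE]
  rfl

theorem eIntg : @c61 = @Fr.f49 @Tx.IsVir @Tx.IsFund := by
  unfold c61 Fr.f49
  rw [eIsVir, eIsFund]
  rfl

theorem eIntgE : @c62 = @Fr.f50 @Tx.IsVir @Tx.IsFund := by
  unfold c62 Fr.f50
  rw [eIntg]
  rfl

theorem eBase : @c84 = @P269.Pc.c77 := (rfl)

theorem eChart : @c88 = @Fr.f81 @Tx.IsVir @Tx.IsFund := by
  unfold c88 Fr.f81
  rw [eIntgE, eBase]
  rfl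

theorem eIsGW : @c91 = @Fr.f84 @Tx.IsVir @Tx.IsFund := by
  unfold c91 Fr.f84
  rw [eChart]
  rfl

theorem eVirasoro : @c98 = @P269.Pc.c91 := (rfl)

theorem eIsHodge : @c100 = @P269.Pc.c93 := (rfl)

theorem eIsCan : @c105 = @P269.Pc.c100 := (rfl)

theorem eConj : @c107 = @Fr.f102 @Tx.IsVir @Tx.IsFund := by
  unfold c107 Fr.f102
  rw [eIsGW, eVirasoro, eIsHodge, eIsCan, eIsFund]
  rfl

theorem eCone : @c2 = @P269.Pc.c2 := (rfl)

theorem eVar : @c6 = @P269.Pc.c6 := (rfl)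

end Vale.Agent.P269L.Pc
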